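import Vale.Agent.P144E.Stmt
import Vale.Agent.P144D.Dom.A

/-!
Reentrant corners: lattice points near a boundary point of a region above a graph.
-/

namespace Vale.Agent.P144Z.Ge4

open Metric B6a P144

lemma Cone.mono {S : Set ℂ} {ν : ℂ} {κ κ' : ℝ} (h : Cone S ν κ) (hκ : κ ≤ κ') : Cone S ν κ' :=
  fun z hz v hv => h z hz v ((mul_le_mul_of_nonneg_right hκ (norm_nonneg v)).trans hv)

lemma fl_aux {a : ℝ} (ha : 0 < a) (t : ℝ) :
    a * (⌊t / a⌋ : ℤ) ≤ t ∧ t < a * (⌊t / a⌋ : ℤ) + a := by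
  have h1 := Int.floor_le (t / a)
  have h2 := Int.lt_floor_add_one (t / a)
  rw [le_div_iff₀' ha] at h1
  rw [div_lt_iff₀' ha] at h2
  exact ⟨h1, by linarith⟩

/-- The site below a point is close to it. -/
lemma norm_fl {a : ℝ} (ha : 0 < a) (z : ℂ) : ‖pt a (fl a z) - z‖ ≤ 2 * a := by
  refine (Complex.norm_le_abs_re_add_abs_im _).trans ?_
  obtain ⟨h1, h2⟩ := fl_aux ha z.re
  obtain ⟨h3, h4⟩ := fl_aux ha z.im
  simp only [pt, fl, Complex.sub_re, Complex.sub_im]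
  have e1 : |a * (⌊z.re / a⌋ : ℤ) - z.re| ≤ a := abs_le.2 ⟨by linarith, by linarith⟩
  have e2 : |a * (⌊z.im / a⌋ : ℤ) - z.im| ≤ a := abs_le.2 ⟨by linarith, by linarith⟩
  linarith

lemma step_aux {a : ℝ} (ha : 0 < a) (t c : ℝ) : ∃ f : ℤ, f.natAbs ≤ 2 ∧
    a * |c| ≤ (a * ((⌊t / a⌋ + f : ℤ) : ℝ) - t) * c ∧ |a * ((⌊t / a⌋ + f : ℤ) : ℝ) - t| ≤ 2 * a := by
  obtain ⟨h1, h2⟩ := fl_aux ha t
  rcases le_total 0 c with hc | hc
  · refine ⟨2, le_rfl, ?_, ?_⟩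
    · rw [abs_of_nonneg hc]
      push_cast
      nlinarith
    · push_cast
      exact abs_le.2 ⟨by linarith, by linarith⟩
  · refine ⟨-1, by norm_num, ?_, ?_⟩
    · rw [abs_of_nonpos hc]
      push_cast
      nlinarith
    · push_cast
      exact abs_le.2 ⟨by linarith, by linarith⟩

/-- A site near `z` that is seen in the direction `ν` from all the points close to `z`. -/
lemma exists_up {a : ℝ} (ha : 0 < a) (z : ℂ) {ν : ℂ} (hν : ‖ν‖ = 1) : ∃ f : ℤ × ℤ, zd f 0 ≤ 2 ∧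
    ∀ u ∈ Metric.ball z (a / 2), (1 / 10 : ℝ) * ‖pt a (fl a z + f) - u‖ ≤
      (pt a (fl a z + f) - u).re * ν.re + (pt a (fl a z + f) - u).im * ν.im := by
  obtain ⟨f₁, a1, a2, a3⟩ := step_aux ha z.re ν.re
  obtain ⟨f₂, b1, b2, b3⟩ := step_aux ha z.im ν.im
  refine ⟨(f₁, f₂), by simp [zd, a1, b1], fun u hu => ?_⟩
  set q := pt a (fl a z + (f₁, f₂)) with hq
  have e1 : (q - z).re = a * ((⌊z.re / a⌋ + f₁ : ℤ) : ℝ) - z.re := by simp [hq, pt, fl]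
  have e2 : (q - z).im = a * ((⌊z.im / a⌋ + f₂ : ℤ) : ℝ) - z.im := by simp [hq, pt, fl]
  rw [← e1] at a2 a3
  rw [← e2] at b2 b3
  have h1 : ‖q - z‖ ≤ 4 * a := by linarith [Complex.norm_le_abs_re_add_abs_im (q - z)]
  have h2 : ‖z - u‖ < a / 2 := mem_ball_iff_norm'.1 hu
  have h3 : 1 ≤ |ν.re| + |ν.im| := hν ▸ Complex.norm_le_abs_re_add_abs_im ν
  have h4 : ‖q - u‖ ≤ ‖q - z‖ + ‖z - u‖ := norm_sub_le_norm_sub_add_norm_sub _ _ _
  have h5 : |(z - u).re * ν.re + (z - u).im * ν.im| ≤ ‖z - u‖ := by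
    have := Complex.abs_re_le_norm ((z - u) * (starRingEnd ℂ) ν)
    rw [norm_mul, Complex.norm_conj, hν, mul_one] at this
    simpa only [Complex.mul_re, Complex.conj_re, Complex.conj_im, mul_neg, sub_neg_eq_add] using this
  have e3 : (q - u).re * ν.re + (q - u).im * ν.im = (q - z).re * ν.re + (q - z).im * ν.im +
      ((z - u).re * ν.re + (z - u).im * ν.im) := by
    simp only [Complex.sub_re, Complex.sub_im]
    ring
  rw [e3]
  nlinarith [(abs_le.1 h5).1]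

/-- The wall through `z` passes near the site below `z`. -/
lemma wall {S : Set ℂ} {ν z : ℂ} {κ a : ℝ} (h : Cone S ν κ) (hκ : κ ≤ 1 / 10) (hν : ‖ν‖ = 1)
    (hz : z ∈ frontier S) (ha : 0 < a) :
    (∃ f ∈ {v | pt a (fl a z + v) ∈ S}, zd f 0 ≤ 2) ∧
      ∃ f, f ∉ {v | pt a (fl a z + v) ∈ S} ∧ zd f 0 ≤ 2 := by
  have h := Cone.mono h hκ
  have a0 : 0 < a / 2 := by positivity
  constructor
  · obtain ⟨f, h1, h2⟩ := exists_up ha z hν
    obtain ⟨u, hu, hd⟩ := Metric.mem_closure_iff.1 (frontier_subset_closure hz) _ a0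
    refine ⟨f, ?_, h1⟩
    have := h u hu _ (h2 u (mem_ball'.2 hd))
    rwa [add_sub_cancel] at this
  · obtain ⟨f, h1, h2⟩ := exists_up ha z (ν := -ν) (by rwa [norm_neg])
    rw [← frontier_compl] at hz
    obtain ⟨u, hu, hd⟩ := Metric.mem_closure_iff.1 (frontier_subset_closure hz) _ a0
    refine ⟨f, fun hf => hu ?_, h1⟩
    have h3 := h2 u (mem_ball'.2 hd)
    have := h _ hf (u - pt a (fl a z + f)) (by
      rw [norm_sub_rev]
      refine h3.trans_eq ?_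
      simp only [Complex.sub_re, Complex.sub_im, Complex.neg_re, Complex.neg_im]
      ring)
    rwa [add_sub_cancel] at this

lemma zd_eq (u v : ℤ × ℤ) : zd u v = zd (u - v) 0 := by simp [zd]

lemma pt_sub (a : ℝ) (x y : ℤ × ℤ) : pt a (x - y) = pt a x - pt a y := by
  rw [eq_sub_iff_add_eq, ← pt_add, sub_add_cancel]

/-- The discretisation of a bounded set. -/
lemma disc_iff {D : Set ℂ} {T a : ℝ} (hT : ∀ z ∈ D, ‖z‖ ≤ T) (ha : 0 < a) (x : ℤ × ℤ) :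
    x ∈ disc D a ↔ pt a x ∈ D := by
  have h1 : ∀ x, pt a x ∈ D → a * zd x 0 ≤ T := fun x hx => (zd_le ha x).trans (hT _ hx)
  have hf : (sites D a).Finite := by
    refine ((Set.finite_Icc (-(⌈T / a⌉₊ : ℤ)) ⌈T / a⌉₊).prod
      (Set.finite_Icc (-(⌈T / a⌉₊ : ℤ)) ⌈T / a⌉₊)).subset fun x hx => ?_
    have h2 : zd x 0 ≤ ⌈T / a⌉₊ := by
      have := ((le_div_iff₀' ha).2 (h1 x hx)).trans (Nat.le_ceil _)
      exact_mod_cast this
    simp only [zd, Prod.fst_zero, Prod.snd_zero, sub_zero, max_le_iff] at h2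
    simp only [Set.mem_prod, Set.mem_Icc]
    omega
  rw [disc, dif_pos hf, Set.Finite.mem_toFinset]
  rfl

/-- Finitely many balls cover a big ball; a scale that is small for all of them. -/
lemma cover (T : ℝ) (r : ℂ → ℝ) (hr : ∀ z, 0 < r z) : ∃ (F : Finset ℂ) (ρ : ℝ), 0 < ρ ∧
    ρ ≤ 1 / 4 ∧ (∀ z ∈ F, 16 * ρ ≤ r z) ∧ (∀ z ∈ F, ∀ z' ∈ F, z ≠ z' → 8 * ρ ≤ ‖z - z'‖) ∧
      ∀ w : ℂ, ‖w‖ ≤ T → ∃ z ∈ F, ‖w - z‖ < r z / 4 := by
  obtain ⟨F, hF⟩ := (isCompact_closedBall (0 : ℂ) T).elim_finite_subcover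
    (fun z : ℂ => Metric.ball z (r z / 4)) (fun z => isOpen_ball) fun z _ =>
      Set.mem_iUnion.2 ⟨z, mem_ball_self (by linarith [hr z])⟩
  have h1 : ∀ᶠ ρ in nhdsWithin (0 : ℝ) (Set.Ioi 0), ∀ z ∈ F, 16 * ρ ≤ r z := by
    refine (Filter.eventually_all_finset F).2 fun z _ => ?_
    filter_upwards [Ioo_mem_nhdsGT (show (0 : ℝ) < r z / 16 by linarith [hr z])] with ρ hρ
    linarith [hρ.2]
  have h2 : ∀ᶠ ρ in nhdsWithin (0 : ℝ) (Set.Ioi 0),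
      ∀ z ∈ F, ∀ z' ∈ F, z ≠ z' → 8 * ρ ≤ ‖z - z'‖ := by
    refine (Filter.eventually_all_finset F).2 fun z _ =>
      (Filter.eventually_all_finset F).2 fun z' _ => ?_
    by_cases e : z = z'
    · exact Filter.Eventually.of_forall fun _ h => (h e).elim
    have : 0 < ‖z - z'‖ / 8 := by
      have := norm_pos_iff.2 (sub_ne_zero.2 e)
      positivity
    filter_upwards [Ioo_mem_nhdsGT this] with ρ hρ _
    linarith [hρ.2]
  obtain ⟨ρ, ⟨a1, a2⟩, a3⟩ :=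
    ((h1.and h2).and (Ioo_mem_nhdsGT (show (0 : ℝ) < 1 / 4 by norm_num))).exists
  refine ⟨F, ρ, a3.1, a3.2.le, a1, a2, fun w hw => ?_⟩
  obtain ⟨z, hz, h⟩ := Set.mem_iUnion₂.1 (hF (mem_closedBall_zero_iff.2 hw))
  exact ⟨z, hz, mem_ball_iff_norm.1 h⟩

end Vale.Agent.P144Z.Ge4
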