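import Vale.Agent.P144E.Basic
import Vale.Agent.P144E.Ge4.A

/-!
Reentrant corners: the discretisation of the domains.
-/

namespace Vale.Agent.P144Z

open B6a P144

namespace Ge4

/-- A chart of the plane read on the lattice. -/
lemma read {D E : Set ℂ} {z : ℂ} {r T a : ℝ} (hT : ∀ z ∈ D, ‖z‖ ≤ T) (ha : 0 < a)
    (e : D ∩ Metric.ball z r = E ∩ Metric.ball z r) {x : ℤ × ℤ} (hx : ‖pt a x - z‖ < r) :
    x ∈ disc D a ↔ pt a x ∈ E := by
  have h := Set.ext_iff.1 e (pt a x)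
  simp only [Set.mem_inter_iff, mem_ball_iff_norm.2 hx, and_true] at h
  rw [disc_iff hT ha]
  exact h

lemma norm_add_le_zd {a : ℝ} (ha : 0 < a) (y v : ℤ × ℤ) (z : ℂ) {s : ℕ} (hv : zd v 0 ≤ s) :
    ‖pt a (y + v) - z‖ ≤ ‖pt a y - z‖ + 2 * (a * s) := by
  have h1 : (zd v 0 : ℝ) ≤ s := by exact_mod_cast hv
  have h2 := le_zd ha v
  have h3 := norm_add_le (pt a y - z) (pt a v)
  rw [pt_add, add_sub_right_comm]
  nlinarith

/-- A reentrant corner read on the lattice. -/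
lemma tip {D S₁ S₂ : Set ℂ} {ν₁ ν₂ z : ℂ} {α κ r T a : ℝ} (hT : ∀ z ∈ D, ‖z‖ ≤ T) (ha : 0 < a)
    (hκ : κ ≤ 1 / 10) (n₁ : ‖ν₁‖ = 1) (n₂ : ‖ν₂‖ = 1) (h₁ : α ≤ ‖ν₁ + ν₂‖) (h₂ : α ≤ ‖ν₁ - ν₂‖)
    (c₁ : Cone S₁ ν₁ κ) (c₂ : Cone S₂ ν₂ κ) (f₁ : z ∈ frontier S₁) (f₂ : z ∈ frontier S₂)
    (e : D ∩ Metric.ball z r = (S₁ ∪ S₂) ∩ Metric.ball z r) {s : ℕ}
    (hs : 2 * a + 2 * (a * s) < r) : TipZ (disc D a) α κ s (fl a z) :=
  ⟨_, _, ν₁, ν₂, ⟨n₁, n₂, h₁, h₂, epi c₁ ha _, epi c₂ ha _, wall c₁ hκ n₁ f₁ ha,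
    wall c₂ hκ n₂ f₂ ha⟩, fun v hv => read hT ha e (by
      linarith [norm_add_le_zd ha (fl a z) v z hv, norm_fl ha z])⟩

end Ge4

open Ge4 in
/-- The discretisation of the domains with reentrant corners. -/
theorem rawStmt : RawStmt := by
  classical
  rintro α D ⟨-, hb, h⟩
  obtain ⟨T, T0, hT⟩ := hb.exists_pos_norm_le
  refine ⟨T, T0, fun κ₀ hκ₀ => ?_⟩
  set κ := min κ₀ (1 / 10) with hκ
  have k1 : κ ≤ 1 / 10 := min_le_right _ _
  choose R R0 S₁ S₂ ν₁ ν₂ n₁ n₂ hα c₁ c₂ hD using fun z => h z κ (by positivity)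
  obtain ⟨F, ρ, ρ0, ρ1, ρ2, ρ3, hF⟩ := cover (T + 1) R R0
  refine ⟨ρ, ρ0, fun a ha => ⟨disc_iff hT ha,
    fun x hx => (zd_le ha x).trans (hT _ ((disc_iff hT ha x).1 hx)), fun r r1 hr => ?_⟩⟩
  have a1 : a ≤ a * r := le_mul_of_one_le_right ha.le (by exact_mod_cast r1)
  set G := F.filter fun z =>
    ¬ D ∩ Metric.ball z (R z) = S₁ z ∩ S₂ z ∩ Metric.ball z (R z) with hG
  have ht : ∀ z ∈ G, ∀ s : ℕ, 2 * a + 2 * (a * s) < R z → TipZ (disc D a) α κ s (fl a z) :=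
    fun z hz s hs => by
      obtain ⟨b1, b2, b3, b4⟩ := (hD z).resolve_left (Finset.mem_filter.1 hz).2
      exact tip hT ha k1 (n₁ z) (n₂ z) (hα z) b1 (c₁ z) (c₂ z) b2 b3 b4 hs
  refine ⟨G.image (fl a), RawZ.mono (κ := κ) ⟨?_, ?_, fun y => ?_⟩ (min_le_left _ _) le_rfl⟩
  · intro p hp p' hp' e
    obtain ⟨z, hz, rfl⟩ := Finset.mem_image.1 hp
    obtain ⟨z', hz', rfl⟩ := Finset.mem_image.1 hp'
    have h1 := ρ3 z (Finset.mem_filter.1 hz).1 z' (Finset.mem_filter.1 hz').1 fun e' => e (e' ▸ rfl)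
    have h2 := le_zd ha (fl a z - fl a z')
    rw [← zd_eq, pt_sub] at h2
    have h3 : ‖z - z'‖ ≤ ‖pt a (fl a z) - z‖ + ‖pt a (fl a z) - pt a (fl a z')‖ +
        ‖pt a (fl a z') - z'‖ := by
      rw [norm_sub_rev _ z]
      exact (norm_sub_le_norm_sub_add_norm_sub z (pt a (fl a z')) z').trans
        (add_le_add_left (norm_sub_le_norm_sub_add_norm_sub _ _ _) _)
    have h4 : a * r < a * zd (fl a z) (fl a z') := by
      linarith [norm_fl ha z, norm_fl ha z']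
    exact_mod_cast lt_of_mul_lt_mul_left h4 ha.le
  · intro p hp
    obtain ⟨z, hz, rfl⟩ := Finset.mem_image.1 hp
    exact ht z hz r (by linarith [ρ2 z (Finset.mem_filter.1 hz).1])
  · rcases le_or_gt ‖pt a y‖ (T + 1) with hy | hy
    · obtain ⟨z, hz, h1⟩ := hF _ hy
      have h2 := ρ2 z hz
      by_cases e : D ∩ Metric.ball z (R z) = S₁ z ∩ S₂ z ∩ Metric.ball z (R z)
      · exact Or.inl ⟨_, _, ν₁ z, ν₂ z, n₁ z, n₂ z, hα z, epi (c₁ z) ha y, epi (c₂ z) ha y,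
          fun v hv => read hT ha e (by linarith [norm_add_le_zd ha y v z hv])⟩
      · have hz' : z ∈ G := Finset.mem_filter.2 ⟨hz, e⟩
        refine Or.inr ⟨fl a z, Finset.mem_image_of_mem _ hz', _, le_rfl, ht z hz' _ ?_⟩
        have h3 := zd_le ha (y - fl a z)
        rw [← zd_eq, pt_sub] at h3
        have h4 := norm_sub_le_norm_sub_add_norm_sub (pt a y) z (pt a (fl a z))
        rw [norm_sub_rev z] at h4
        push_cast
        linarith [norm_fl ha z, mul_add a (zd y (fl a z) : ℝ) r]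
    · refine Or.inl ⟨∅, ∅, ν₁ 0, ν₂ 0, n₁ 0, n₂ 0, hα 0, fun _ h => h.elim, fun _ h => h.elim,
        fun v hv => ⟨fun h1 => ?_, fun h1 => h1.1.elim⟩⟩
      have h2 := hT _ ((disc_iff hT ha _).1 h1)
      have h3 := norm_add_le_zd ha (y + v) (-v) 0 (s := r) (by
        rw [zd_eq] at hv ⊢
        simpa [zd] using hv)
      rw [add_neg_cancel_right, sub_zero, sub_zero] at h3
      exfalso
      linarith

end Vale.Agent.P144Z
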